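import Vale.Agent.P275HB.Lin
import Vale.Agent.P275MB.Iso

/-!
# P275, block BASE (helper52): the Hitchin map
-/

set_option linter.unusedSectionVars false

open scoped Topology Matrix.Norms.Operator Manifold ContDiff
open Set Filter Metric Matrix

noncomputable section

namespace Vale.Agent.P275HB

open Vale.Agent.P275GC Vale.Agent.P275GC.At Vale.Agent.P275AD Vale.Agent.P275HN
open Vale.Agent.P275MO Vale.Agent.P275MB
open Vale.Agent.P275NA (Fm Cy Mn Hig)
open Vale.Agent.P275ST (Base)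
open Vale.Agent.P281Z.Hm (an_ent an_of an_mul an_det)

variable {C : Type} [TopologicalSpace C] [T2Space C] {A : At C} {n : ℕ} {l : Cy A ℂ}
  {z : Dat C A.N n} {i : Fin A.N} {w : ℂ} {j : Fin A.N × Bool} {r : ℝ} {h1 : 1 < r} {h2 : r ≤ A.R}
  {τ : Ty n}

theorem cp_an' {k : ℕ} (hk : k ≤ n) (M : Mn n) :
    AnalyticAt ℂ (fun X : Mn n => X.charpoly.coeff k) M := by
  have a := fun M : Mn n => charpoly_coeff_eq_sum_minors M (n - k) (by simp)
  simp only [Fintype.card_fin, Nat.sub_sub_self hk] at a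
  simp only [a]
  exact analyticAt_const.mul (Finset.analyticAt_fun_sum _ fun s _ =>
    an_det (an_of fun b c => an_ent analyticAt_id _ _))

theorem cp_top {M : Mn n} (h : M.trace = 0) {k : ℕ} (e : k + 1 = n) : M.charpoly.coeff k = 0 := by
  subst e
  simpa [h] using trace_eq_neg_charpoly_coeff M

theorem ev_smul (s : ℂ) (a : Fm A (Mn n)) (q : Ix A n) :
    ev A (fun i w => s • a i w) j q = s ^ (n - q.2) * ev A a j q := by
  have := cp_smul (Nat.sub_le n q.2) s (a j.1 (sp j.2 q.1))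
  rwa [Nat.sub_sub_self q.2.2.le] at this

theorem hD_smul (s : ℂ) (z : Dat C A.N n) : hD A (z.smul s) = sV A s (hD A z) :=
  funext fun j => funext fun q =>
    (congrArg ((cut A j z.x : ℂ) * ·) (ev_smul s z.a q)).trans (mul_left_comm _ _ _)

/-- the Hitchin map to the big base is equivariant -/
theorem hY_sc (s : ℂˣ) {y : Mod A l τ} (h : y.lam = 0) : hY (sc s y) = sS A s (hY y) := by
  obtain ⟨y, rfl⟩ := pt_surj y
  refine Prod.ext rfl (Prod.ext (η_sc s _) ?_)
  exact (hV_pt (z := osc s y) (mul_eq_zero_of_right _ h)).trans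
    ((hD_smul s y.1).trans (congrArg _ (hV_pt h).symm))

theorem cont_hD {T : Type} [TopologicalSpace T] {F : T → Dat C A.N n} {t : T}
    (f : FamAt A l F t) : ContinuousAt (fun s => hD A (F s)) t := by
  obtain ⟨r, h1, h2, V, hV, f⟩ := f
  have x := f.x.continuousAt hV
  refine continuousAt_pi.2 fun j => continuousAt_pi.2 fun q => ?_
  by_cases e : (A.e j.1).symm (sp j.2 q.1) = (F t).x
  · refine (continuousAt_const (y := (0 : ℂ))).congr ?_
    have c := (continuous_const (y := P275HN.sg j.2)).mul (ct_ext (isCompact_closedBall 0 1)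
      A.unit_sub (bp.continuous.mul Complex.continuous_re).continuousOn (fun _ _ h =>
        mul_eq_zero_of_left (bp_zero (not_le.1 (mem_closedBall_zero_iff.not.1 h)).le) _) j.1)
    have d := lt_cut j q.1
    rw [e] at d
    filter_upwards [(c.continuousAt.comp x).eventually (lt_mem_nhds d)] with s hs
    exact (mul_eq_zero_of_left (Complex.ofReal_eq_zero.2 (max_eq_right (sub_nonpos.2 hs.le))) _).symm
  · refine (Complex.continuous_ofReal.continuousAt.comp ((cont_cut j).continuousAt.comp x)).mul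
      ((cp_an' q.2.2.le _).continuousAt.comp (ContinuousOn.continuousAt ((f.a j.1).comp
        (continuousOn_id.prodMk continuousOn_const) fun s a => ⟨a.1, sp_ball _ _ _, a.2⟩)
        (inter_mem hV (x.eventually_ne (Ne.symm e) |>.mono fun _ a => Ne.symm a))))

/-- the Hitchin map to the big base is continuous on the space of Higgs bundles -/
theorem cont_hY : Continuous fun y : M0 A l τ => hY y.1 := by
  refine (cont_x.comp continuous_subtype_val).prodMk ((cont_η.comp continuous_subtype_val).prodMk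
    (continuous_def.2 fun U hU => ⟨{y | y.lam = 0 → hV y ∈ U}, fun T _ F t f m => ?_,
      Set.ext fun y => ⟨fun a => a y.2, fun a _ => a⟩⟩))
  by_cases c : (F t).1.lam = 0
  · filter_upwards [cont_hD f (hU.mem_nhds (show hD A (F t).1 ∈ U from hV_pt c ▸ m c))] with s a b using hV_pt b ▸ a
  · filter_upwards [(cont_lam.continuousAt.comp f.continuousAt).eventually_ne c] with s a b
      using (a b).elim

theorem ev_off (hw : w ∈ ball (0 : ℂ) A.R) (x : C) : ∀ᶠ u in 𝓝[≠] w, u ∈ off A x i := by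
  by_cases e : (A.e i).symm w = x
  · have := off_ev (A := A) (i := i) (x := x) (e ▸ map_tgt hw)
    rwa [← e, rinv hw, e] at this
  · exact pn ((off_open _ _).mem_nhds ⟨hw, e⟩)

theorem an_a (g : Good A l z) (hw : w ∈ off A z.x i) : AnalyticAt ℂ (z.a i) w :=
  (g.hol i).analyticAt ((off_open _ _).mem_nhds hw)

/-- the singularity is removable if the residue vanishes -/
theorem ho_a (g : Good A l z) (hR : z.R = 0) (hw : w ∈ ball (0 : ℂ) A.R) : Ho (z.a i) w := by
  by_cases e : (A.e i).symm w = z.x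
  · have p := g.pole i (e ▸ map_tgt hw)
    rw [hR, Matrix.mul_zero, Matrix.zero_mul, ← e, rinv hw] at p
    obtain ⟨q, hq⟩ := Complex.analyticAt_of_differentiable_on_punctured_nhds_of_continuousAt
      (f := fun u => (u - w) • z.a i u) (c := w) ((ev_off hw z.x).mono fun u hu =>
        (differentiableAt_id.sub_const w).smul (an_a g hu).differentiableAt)
      (continuousAt_iff_punctured_nhds.2 (by simp only [sub_self, zero_smul]; exact p))
    refine ⟨_, ⟨_, hq.has_fpower_series_dslope_fslope⟩, (ev_ne w).mono fun u hu => ?_⟩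
    simp [dslope_of_ne _ hu, slope_def_module, smul_smul, inv_mul_cancel₀ (sub_ne_zero.2 hu)]
  · exact ho_an (an_a g ⟨hw, e⟩)

theorem hx_a (g : Good A l z) (hw : w ∈ off A z.x i) : hx (z.a i) w = z.a i w :=
  hx_eq (an_a g hw).continuousAt EventuallyEq.rfl

/-- the Higgs bundle given by an object without pole -/
theorem hig_a (g : Good A l z) (h0 : z.lam = 0) (hR : z.R = 0) :
    Hig A A.d z.g fun i => hx (z.a i) where
  cc := g.cc
  hol i _ hw := (ho_a g hR hw).an.differentiableAt.differentiableWithinAt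
  tr i j w hw := by
    refine eq_of_ev (f := fun w => hx (z.a i) w * z.g i j w)
      (g := fun w => A.d i j w • (z.g i j w * hx (z.a j) (A.tr i j w)))
      (an_mul (ho_a g hR hw.1).an (g.cc.an hw)).continuousAt ((an_d hw).smul (an_mul (g.cc.an hw)
        ((ho_a g hR (tr_ball hw)).an.comp (an_tr hw)))).continuousAt ?_
    filter_upwards [ev_off (i := i) hw.1 z.x, pn (O_nhds hw)] with u a b
    simpa [hx_a g a, hx_a g (off_tr b a.2), h0] using Good.law' g b a.2

theorem tr_a (g : Good A l z) (hR : z.R = 0) (hw : w ∈ ball (0 : ℂ) A.R) :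
    (hx (z.a i) w).trace = 0 :=
  eq_of_ev (f := fun w => (hx (z.a i) w).trace) (g := fun _ => 0)
    (P281Z.Hm.an_trace (ho_a g hR hw).an).continuousAt continuousAt_const
    ((ev_off hw z.x).mono fun u a => (congrArg trace (hx_a g a)).trans (g.tr i u a))

variable [ChartedSpace ℂ C] [PreconnectedSpace C] [IsManifold 𝓘(ℂ) ω C]

theorem ok_res (ok : Ok A) : Ok (A.res r h1 h2) := fun i x hx => ok i x hx.1

theorem ex_base (ok : Ok A) (g : Good (A.res r h1 h2) l z) (h0 : z.lam = 0) (hR : z.R = 0) :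
    ∃ b : Base C n, (∀ (k : Fin (n - 1)) i, ∀ w ∈ ball (0 : ℂ) r,
      cf A (k + 2) (b k) i w = (hx (z.a i) w).charpoly.coeff (n - (k + 2))) ∧
      (∀ j, cut A j z.x ≠ 0 → evB A j b = ev A z.a j) ∧
      hD A z = fun j => (cut A j z.x : ℂ) • evB A j b := by
  obtain ⟨b, hb⟩ := exists_base (ok_res ok) (hig_a (A := A.res r h1 h2) g h0 hR)
  have e : ∀ j, cut A j z.x ≠ 0 → evB A j b = ev A z.a j := fun j c => funext fun q => by
    have o := sp_off c q.1 h1 h2
    rcases ix_cases q.2 with h | ⟨k, h⟩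
    · exact (evB_top b h).trans (cp_top (g.tr _ _ o) h).symm
    · refine (evB_eq b k h).trans ((hb k j.1 _ o.1).trans ?_)
      rw [hx_a (A := A.res r h1 h2) g o, show n - (k + 2) = q.2 by omega]
      rfl
  refine ⟨b, hb, e, funext fun j => ?_⟩
  by_cases c : cut A j z.x = 0
  · simp [hD, c]
  · rw [e j c, hD]

theorem ret_hD (ok : Ok A) (g : Good (A.res r h1 h2) l z) (h0 : z.lam = 0) (hR : z.R = 0)
    {m : ℕ} (η : Fin m → ℂ) (c : cut A j z.x ≠ 0) :
    ret A (z.x, η, hD A z) = lv A j (ev A z.a j) := by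
  obtain ⟨b, -, e, f⟩ := ex_base ok g h0 hR
  rw [f, ← e j c, lv_evB ok]
  exact ret_emb (m := m) ok (z.x, b)

section ob
variable {y : Ob A l τ}

theorem hB_spec (ok : Ok A) (g : Good (A.res r h1 h2) l y.1) (h0 : y.1.lam = 0) (hR : y.1.R = 0) :
    hY y.pt = emb A τ.m (y.1.x, hB y.pt) ∧ ∀ (k : Fin (n - 1)) i, ∀ w ∈ ball (0 : ℂ) r,
      cf A (k + 2) (hB y.pt k) i w = (hx (y.1.a i) w).charpoly.coeff (n - (k + 2)) := by
  obtain ⟨b, e, -, f⟩ := ex_base ok g h0 hR
  have a : hY y.pt = emb A τ.m (y.1.x, b) :=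
    Prod.ext rfl (Prod.ext ((η_pt y).trans (by rw [hR, map_zero]; rfl)) ((hV_pt h0).trans f))
  rw [hB, a, ret_emb ok]
  exact ⟨rfl, e⟩

/-- the coefficients of the Hitchin map are those of the characteristic polynomial -/
theorem cf_hB (ok : Ok A) (g : Good (A.res r h1 h2) l y.1) (h0 : y.1.lam = 0) (hR : y.1.R = 0)
    (k : Fin (n - 1)) (hw : w ∈ off (A.res r h1 h2) y.1.x i) :
    cf A (k + 2) (hB y.pt k) i w = (y.1.a i w).charpoly.coeff (n - (k + 2)) := by
  rw [(hB_spec ok g h0 hR).2 k i w hw.1, hx_a (A := A.res r h1 h2) g hw]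

theorem hY_pt (ok : Ok A) (h0 : y.1.lam = 0) (hR : y.1.R = 0) :
    hY y.pt = emb A τ.m (y.1.x, hB y.pt) := by
  obtain ⟨r, h1, h2, g⟩ := Ob.ex y
  exact (hB_spec ok g h0 hR).1

theorem hB_osc (ok : Ok A) (h0 : y.1.lam = 0) (hR : y.1.R = 0) (s : ℂˣ) :
    hB (sc s y.pt) = sB s (hB y.pt) := by
  rw [hB, hY_sc (y := y.pt) s h0, hY_pt ok h0 hR, sS_emb, ret_emb ok]

/-- the Hitchin map read on any Higgs bundle which extends the object -/
theorem hB_eq (ok : Ok A) (g : Good (A.res r h1 h2) l y.1) (h0 : y.1.lam = 0) (hR : y.1.R = 0)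
    {b : Base C n} (h : ∀ (k : Fin (n - 1)) i, ∀ w ∈ off (A.res r h1 h2) y.1.x i,
      cf A (k + 2) (b k) i w = (y.1.a i w).charpoly.coeff (n - (k + 2))) : hB y.pt = b :=
  base_ext (ok_res (h1 := h1) (h2 := h2) ok) fun k i _ hw =>
    eq_of_ev (((mem_H0 ok).1 (hB y.pt k).2).an (ball_subset_ball h2 hw) i).continuousAt
      (((mem_H0 ok).1 (b k).2).an (ball_subset_ball h2 hw) i).continuousAt
      ((ev_off (A := A.res r h1 h2) hw y.1.x).mono fun u a =>
        (cf_hB ok g h0 hR k a).trans (h k i u a).symm)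

end ob

section mod
variable {y : Mod A l τ}

theorem R_zero (hq : τ.q = ⊥) (y : Ob A l τ) : y.1.R = 0 := (Submodule.mem_bot ℂ).1 (hq ▸ y.2.2)

theorem hY_eq (ok : Ok A) (hq : τ.q = ⊥) (h0 : y.lam = 0) : hY y = emb A τ.m (y.x, hB y) := by
  obtain ⟨y, rfl⟩ := pt_surj y
  exact hY_pt ok h0 (R_zero hq y)

theorem hB_sc (ok : Ok A) (hq : τ.q = ⊥) (h0 : y.lam = 0) (s : ℂˣ) :
    hB (sc s y) = sB s (hB y) := by
  obtain ⟨y, rfl⟩ := pt_surj y
  exact hB_osc ok h0 (R_zero hq y) s

theorem hB_fl (ok : Ok A) (hq : τ.q = ⊥) (h0 : y.lam = 0) (t : ℝ) :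
    hB (fl t y) = sB (Real.exp t : ℝ) (hB y) := by
  rw [Complex.ofReal_exp]
  exact hB_sc ok hq h0 _

theorem cont_hB : Continuous fun y : M0 A l τ => hB y.1 := cont_ret.comp cont_hY

/-- properness passes from the big base to the curve times the Hitchin base -/
theorem proper_hB (ok : Ok A) (hq : τ.q = ⊥) (h : IsProperMap fun y : M0 A l τ => hY y.1) :
    IsProperMap fun y : M0 A l τ => (y.1.x, hB y.1) :=
  isProperMap_of_comp_of_inj ((cont_x.comp continuous_subtype_val).prodMk cont_hB) cont_emb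
    (by convert h using 1; exact funext fun y => (hY_eq ok hq y.2).symm) (emb_inj (m := τ.m) ok)

end mod

section hol
variable {E : Type} [NormedAddCommGroup E] [NormedSpace ℂ E] {W : Set E} {t : E}

/-- the Hitchin map is holomorphic in families -/
theorem hol_ret (ok : Ok A) {F : E → Dat C A.N n} (f : HFamOn (A.res r h1 h2) l F W)
    (hW : W ∈ 𝓝 t) : ∃ (G : E → Base C n) (U : Set E), U ∈ 𝓝 t ∧ U ⊆ W ∧
      (∀ (P : Type) [NormedAddCommGroup P] [NormedSpace ℂ P] (φ : Base C n →ₗ[ℂ] P),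
        DifferentiableOn ℂ (fun s => φ (G s)) U) ∧
      ∀ s ∈ U, (F s).lam = 0 → (F s).R = 0 → ∀ (m : ℕ) (η : Fin m → ℂ),
        ret A ((F s).x, η, hD A (F s)) = G s := by
  obtain ⟨j, c⟩ := ex_cut (A := A) (F t).x
  refine ⟨fun s => lv A j (ev A (F s).a j), W ∩ {s | cut A j (F s).x ≠ 0}, inter_mem hW
    (((cont_cut j).continuousAt.comp (f.x.continuousAt hW)).eventually_ne c), inter_subset_left,
    fun P _ _ φ => ?_, fun s a b d m η => ret_hD ok (f.good s a.1) b d η a.2⟩
  refine (φ ∘ₗ lv A j).toContinuousLinearMap.differentiable.comp_differentiableOn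
    (differentiableOn_pi.2 fun q s a => ?_)
  exact (cp_an' q.2.2.le _).differentiableAt.comp_differentiableWithinAt s ((f.ha j.1).comp
    (differentiableOn_id.prodMk (differentiableOn_const _))
    (fun s a => ⟨a.1, sp_off a.2 q.1 h1 h2⟩) s a)

theorem hol_hB (ok : Ok A) {F : E → Ob A l τ} (f : HFamOn (A.res r h1 h2) l (fun s => (F s).1) W)
    (hW : W ∈ 𝓝 t) (h0 : ∀ s ∈ W, (F s).1.lam = 0 ∧ (F s).1.R = 0) {P : Type}
    [NormedAddCommGroup P] [NormedSpace ℂ P] (φ : Base C n →ₗ[ℂ] P) :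
    DifferentiableAt ℂ (fun s => φ (hB (F s).pt)) t := by
  obtain ⟨G, U, a, b, c, d⟩ := hol_ret ok f hW
  refine ((c P φ).differentiableAt a).congr_of_eventuallyEq (eventually_of_mem a fun s e => ?_)
  have h := h0 s (b e)
  exact congrArg φ ((congrArg (fun v => ret A ((F s).1.x, (F s).pt.η, v)) (hV_pt h.1)).trans
    (d s e h.1 h.2 _ _))

end hol

end Vale.Agent.P275HB
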