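import Vale.Agent.P275HB.Lin
import Vale.Agent.P275Z.Top

/-!
# P275, block BASE (helper52): the Hitchin base has finite dimension
-/

namespace Vale.Agent.P275HB

theorem fdb : P275Z.FDB := fun S => by
  obtain ⟨A, -, ok⟩ := P275GC.exists_at S.C
  exact fd_base (A := A) ok S.n

end Vale.Agent.P275HB
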