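import Vale.Agent.P275HN.Defs
import Vale.Agent.P275GC.Ex

/-!
# P275, block BASE (helper52): sampling of the Hitchin base
-/

set_option linter.unusedSectionVars false

open scoped Topology Matrix.Norms.Operator Manifold ContDiff
open Set Filter Metric Matrix

noncomputable section

namespace Vale.Agent.P275HB

open Vale.Agent.P275GC Vale.Agent.P275GC.At Vale.Agent.P275AD Vale.Agent.P275HN
open Vale.Agent.P275NA (Fm Cy Mn)
open Vale.Agent.P275ST (Base)

variable {C : Type} [TopologicalSpace C] [T2Space C] {A : At C} {n : ℕ}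

/-- a holomorphic section with more zeros than the degree vanishes -/
theorem zeros_le [PreconnectedSpace C] {l : Cy A ℂ} {s : Fm A ℂ} (hs : A.Sec l s) (hh : A.Hl s)
    (hl : A.Cc l) {m : ℕ} {i : Fin A.N} {p : Fin m → ℂ} (hp : Function.Injective p)
    (hb : ∀ a, p a ∈ ball (0 : ℂ) A.R) (h0 : ∀ a, s i (p a) = 0) (hm : A.deg l < m) (j : Fin A.N)
    {w : ℂ} (hw : w ∈ ball (0 : ℂ) A.R) : s j w = 0 := by_contra fun c => by
  have M := hs.mero hh hl hw c
  have a : m ≤ M.fin.toFinset.card := by
    simpa using Finset.card_le_card_of_injOn (s := Finset.univ) (t := M.fin.toFinset)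
      (fun a => (A.e i).symm (p a))
      (fun a _ => M.fin.mem_toFinset.2 fun e => (M.eq_zero_iff hh (hb a)).1 e (h0 a))
      fun a _ b _ e => hp (by rw [← rinv (i := i) (hb a), ← rinv (i := i) (hb b)]; exact congrArg _ e)
  have b := Finset.card_nsmul_le_sum M.fin.toFinset (A.od s) 1
    fun x hx => (M.nonneg hh x).lt_of_ne' (M.fin.mem_toFinset.1 hx)
  rw [M.deg hl, finsum_eq_sum _ M.fin] at hm
  rw [nsmul_one] at b
  exact hm.not_ge (by exact_mod_cast (Int.ofNat_le.2 a).trans b)

theorem sp_inj (b : Bool) : Function.Injective (sp b) := fun m m' e => by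
  have a : P275HN.sg b ≠ 0 := left_ne_zero_of_mul_eq_one (sg_sq b)
  have c := add_left_cancel (mul_left_cancel₀ a (Complex.ofReal_injective e))
  rw [one_div, one_div, _root_.inv_inj, add_left_inj] at c
  exact_mod_cast c

theorem cont_cut (j : Fin A.N × Bool) : Continuous (cut A j) :=
  (continuous_const.sub (continuous_const.mul (ct_ext (isCompact_closedBall 0 1) A.unit_sub
    (bp.continuous.mul Complex.continuous_re).continuousOn (fun _ _ h => mul_eq_zero_of_left
      (bp_zero (not_le.1 (mem_closedBall_zero_iff.not.1 h)).le) _) j.1))).max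
    continuous_const

theorem cut_nonneg (j : Fin A.N × Bool) (x : C) : 0 ≤ cut A j x := le_max_right _ _

theorem ex_cut (x : C) : ∃ j, cut A j x ≠ 0 := by
  obtain ⟨i, -⟩ := A.cov x
  rcases le_total (A.ext i (fun w => bp w * w.re) x) 0 with h | h
  · exact ⟨(i, true), (lt_max_of_lt_left (by simp [P275HN.sg]; linarith)).ne'⟩
  · exact ⟨(i, false), (lt_max_of_lt_left (by simp [P275HN.sg]; linarith)).ne'⟩

theorem sum_cut (x : C) : 0 < ∑ j, cut A j x := by
  obtain ⟨j, h⟩ := ex_cut (A := A) x
  exact Finset.sum_pos' (fun j _ => cut_nonneg j x)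
    ⟨j, Finset.mem_univ _, (cut_nonneg j x).lt_of_ne' h⟩

variable [ChartedSpace ℂ C] {j : Fin A.N × Bool} {m : ℕ}

theorem evB_def (b : Base C n) (q : Ix A n) : evB A j b q = ∑ k : Fin (n - 1),
    if (q.2 : ℕ) + (k + 2) = n then cf A (k + 2) (b k) j.1 (sp j.2 q.1) else 0 := rfl

theorem evB_eq (b : Base C n) {q : Ix A n} (k : Fin (n - 1)) (h : (q.2 : ℕ) + (k + 2) = n) :
    evB A j b q = cf A (k + 2) (b k) j.1 (sp j.2 q.1) := by
  rw [evB_def, Finset.sum_eq_single k (fun k' _ e => if_neg fun c => e (Fin.ext (by omega)))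
    fun c => (c (Finset.mem_univ _)).elim, if_pos h]

theorem evB_top (b : Base C n) {q : Ix A n} (h : (q.2 : ℕ) + 1 = n) : evB A j b q = 0 :=
  (evB_def b q).trans (Finset.sum_eq_zero fun k _ => if_neg (by omega))

theorem ix_cases (q : Fin n) : (q : ℕ) + 1 = n ∨ ∃ k : Fin (n - 1), (q : ℕ) + (k + 2) = n := by
  have := q.2
  by_cases h : (q : ℕ) + 1 = n
  · exact Or.inl h
  · exact Or.inr ⟨⟨n - 2 - q, by omega⟩, by simp only; omega⟩

theorem sV_evB (s : ℂ) (b : Base C n) (q : Ix A n) :
    evB A j (sB s b) q = s ^ (n - q.2) * evB A j b q := by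
  rcases ix_cases q.2 with h | ⟨k, h⟩
  · rw [evB_top _ h, evB_top _ h, mul_zero]
  · rw [evB_eq _ k h, evB_eq _ k h, show n - q.2 = k + 2 by omega]
    exact mul_left_comm _ _ _

/-- the embedding is equivariant -/
theorem sS_emb (s : ℂ) (p : C × Base C n) : sS A s (emb A m p) = emb A m (p.1, sB s p.2) :=
  Prod.ext rfl (Prod.ext (smul_zero _) (funext fun j => funext fun q => by
    simp only [sS, sV, emb, Pi.smul_apply, smul_eq_mul, sV_evB, mul_left_comm]))

theorem cont_evB (j : Fin A.N × Bool) : Continuous (evB A j : Base C n → _) :=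
  continuous_pi fun q => by
    simp only [evB_def]
    refine continuous_finsetSum _ fun k _ => ?_
    split_ifs
    · exact continuous_const.mul ((continuous_apply _).comp
        (continuous_subtype_val.comp (continuous_apply k)))
    · exact continuous_const

theorem cont_lv (j : Fin A.N × Bool) : Continuous (lv A j : _ → Base C n) :=
  LinearMap.continuous_of_finiteDimensional _

theorem cont_emb : Continuous (emb A m : C × Base C n → _) :=
  continuous_fst.prodMk (continuous_const.prodMk (continuous_pi fun j =>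
    (Complex.continuous_ofReal.comp ((cont_cut j).comp continuous_fst)).smul
      ((cont_evB j).comp continuous_snd)))

theorem cont_ret : Continuous (ret A : Sb A n m → Base C n) :=
  ((Complex.continuous_ofReal.comp ((continuous_finsetSum _ fun j _ => cont_cut j).comp
    continuous_fst)).inv₀ fun y => Complex.ofReal_ne_zero.2 (sum_cut y.1).ne').smul
    (continuous_finsetSum _ fun j _ => (cont_lv j).comp ((continuous_apply j).comp
      (continuous_snd.comp continuous_snd)))

theorem cont_sB : Continuous fun p : ℂ × Base C n => sB p.1 p.2 :=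
  continuous_pi fun k => (continuous_fst.pow _).smul ((continuous_apply k).comp continuous_snd)

variable [PreconnectedSpace C] [IsManifold 𝓘(ℂ) ω C]

theorem evB_inj (ok : Ok A) (j : Fin A.N × Bool) : Function.Injective (evB A j : Base C n → _) :=
  (injective_iff_map_eq_zero _).2 fun b h => base_ext ok fun k i z hz => by
    have l := k.2
    rw [show cf A (k + 2) ((0 : Base C n) k) i z = 0 from mul_zero _]
    refine zeros_le (cf_sec ok _ _) ((mem_H0 ok).1 (b k).2) (A.cc_d.pow _) (i := j.1)
      (p := fun a : Fin (ns A n) => sp j.2 a) ((sp_inj _).comp Fin.val_injective)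
      (fun a => sp_ball A _ _) (fun a => ?_) ?_ i hz
    · exact (evB_eq (q := (a, ⟨n - (k + 2), by omega⟩)) b k (by simp only; omega)).symm.trans
        (congrFun h _)
    · have a : (((k : ℕ) + 2 : ℕ) : ℝ) ≤ n := by exact_mod_cast (by omega : (k : ℕ) + 2 ≤ n)
      have c := Nat.le_ceil (n * (|A.deg A.d| + 1))
      rw [deg_pow A.cc_d, ns]
      push_cast at a ⊢
      nlinarith [le_abs_self (A.deg A.d), abs_nonneg (A.deg A.d), Nat.cast_nonneg (α := ℝ) k]

/-- the Hitchin base has finite dimension -/
theorem fd_base [Nonempty C] (ok : Ok A) (n : ℕ) : FiniteDimensional ℂ (Base C n) := by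
  obtain ⟨j, -⟩ := ex_cut (A := A) (Classical.arbitrary C)
  exact FiniteDimensional.of_injective (evB A j) (evB_inj ok j)

theorem lv_evB (ok : Ok A) (j : Fin A.N × Bool) (b : Base C n) : lv A j (evB A j b) = b := by
  have h : ∃ L : (Ix A n → ℂ) →ₗ[ℂ] Base C n, ∀ b, L (evB A j b) = b :=
    ((evB A j).exists_leftInverse_of_injective (LinearMap.ker_eq_bot.2 (evB_inj ok j))).imp
      fun L e b => LinearMap.congr_fun e b
  rw [lv, dif_pos h]
  exact h.choose_spec b

theorem ret_emb (ok : Ok A) (p : C × Base C n) : ret A (emb A m p) = p.2 := by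
  simp only [ret, emb, map_smul, lv_evB ok]
  rw [← Finset.sum_smul, ← Complex.ofReal_sum,
    inv_smul_smul₀ (Complex.ofReal_ne_zero.2 (sum_cut p.1).ne')]

theorem emb_inj (ok : Ok A) : Function.Injective (emb A m : C × Base C n → _) := fun p q e =>
  Prod.ext (congrArg (fun y : Sb A n m => y.1) e) (by rw [← ret_emb (m := m) ok p, e, ret_emb ok])

/-- the curve times the Hitchin base is a closed subspace of the big base -/
theorem emb_closed (ok : Ok A) : Topology.IsClosedEmbedding (emb A m : C × Base C n → _) :=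
  Function.LeftInverse.isClosedEmbedding (f := fun y : Sb A n m => (y.1, ret A y))
    (fun p => Prod.ext rfl (ret_emb ok p)) (continuous_fst.prodMk cont_ret) cont_emb

end Vale.Agent.P275HB
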